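import Vale.Agent.P292.Dn.B5

namespace Vale.Agent.Results.P292.ContactFano

open Vale.Agent.P292

universe u

/-- The contact form of the LeBrun-Salamon conjecture (Q2): every contact Fano manifold of
dimension at least three is an adjoint variety. -/
theorem result {R : Type u} [CommRing R] [Algebra ℂ R] (𝒜 : ℕ → Submodule ℂ R)
    [GradedAlgebra 𝒜] (P : R →ₗ[ℂ] R →ₗ[ℂ] R) (hX : IsContactFano 𝒜 P)
    (hdim : 3 ≤ Algebra.trdeg ℂ R) : IsAdjointVariety 𝒜 P :=
  isAdjointVariety_of_contactFano hX hdim

end Vale.Agent.Results.P292.ContactFano
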